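import Vale.Agent.P153.Seal.All
import Vale.Agent.P153.App2.All
import Vale.Agent.P153.K2.All
import Vale.Agent.P153.Wick.Main

/-! P153: the lattice inputs and the theorem on the field. -/

namespace Vale.Agent.P153

theorem l_har_all : Wick.L_har :=
  Seal.l_har App2.levMu_all App2.levDob_all App.seal_scr_all App.seal_gstar_all App2.scrn_all
    App2.tvm_all App2.dec_all App2.m4Mu_all App2.m4Dob_all App2.tvi_all App2.vsub_all App2.m2_all

theorem field_all : Wick.Field :=
  Wick.field_of App2.l_mb_all App2.l_m0_all App2.l_mix_all l_har_all (K2.l_bv_all App2.l_mb_all)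
    App2.l_var_all

end Vale.Agent.P153
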