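import Vale.Agent.P153.Defs

/-! Core notions for the lattice part of P153 (heights `H` with `h = 2 H - 1`). -/

open Set

namespace Vale.Agent.P153

abbrev Cfg : Type := V → ℤ

/-- Unit Lipschitz functions on the whole lattice. -/
def Lip (H : Cfg) : Prop := ∀ x y, Adj x y → |H x - H y| ≤ 1

/-- Lipschitz functions with sitewise constraints. -/
def Om (C : V → Set ℤ) : Set Cfg := {H | Lip H ∧ ∀ x, H x ∈ C x}

/-- A finite nonempty set of configurations (a uniform probability measure). -/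
def Good (S : Set Cfg) : Prop := S.Finite ∧ S.Nonempty

/-- Expectation under the uniform measure. -/
noncomputable def Ex (S : Set Cfg) (f : Cfg → ℝ) : ℝ := avg S f

/-- Probability under the uniform measure. -/
noncomputable def Pr (S E : Set Cfg) : ℝ := Ex S (E.indicator 1)

/-- Hexagonal norm = graph distance to the origin. -/
def nrm (x : V) : ℕ := max (max x.1.natAbs x.2.natAbs) (x.1 + x.2).natAbs

/-- Hexagon of radius `n`. -/
def hex (x : V) (n : ℕ) : Set V := {y | nrm (y - x) ≤ n}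

/-- Closed annulus. -/
def ann (x : V) (n N : ℕ) : Set V := {y | n ≤ nrm (y - x) ∧ nrm (y - x) ≤ N}

/-- Connection through `E`-open lattice edges inside `A`. -/
def Conn (E : V → V → Prop) (A : Set V) : V → V → Prop :=
  Relation.ReflTransGen fun a b => Adj a b ∧ E a b ∧ a ∈ A ∧ b ∈ A

/-- Edges with both ends in `S`. -/
def both (S : Set V) (a b : V) : Prop := a ∈ S ∧ b ∈ S

/-- Edges touching `S`. -/
def star (S : Set V) (a b : V) : Prop := a ∈ S ∨ b ∈ S

/-- A crossing of the annulus. -/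
def Arm (E : V → V → Prop) (x : V) (n N : ℕ) : Prop :=
  ∃ a b, nrm (a - x) = n ∧ nrm (b - x) = N ∧ Conn E (ann x n N) a b

/-- The edge `a b` crosses the ray going right from just above `x`. -/
def crossR (x a b : V) : Prop :=
  (a.2 = x.2 ∧ b.2 = x.2 + 1 ∧ x.1 < a.1) ∨ (b.2 = x.2 ∧ a.2 = x.2 + 1 ∧ x.1 < b.1)

open Classical in
/-- Number of crossings of that ray by the walk `w 0, …, w m`. -/
noncomputable def wind (w : ℕ → V) (m : ℕ) (x : V) : ℕ :=
  ((Finset.range m).filter fun t => crossR x (w t) (w (t + 1))).card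

/-- A closed `E`-open walk in the annulus winding an odd number of times round the centre. -/
def Circ (E : V → V → Prop) (x : V) (n N : ℕ) : Prop :=
  ∃ (m : ℕ) (w : ℕ → V), w m = w 0 ∧ (∀ t < m, Adj (w t) (w (t + 1)) ∧ E (w t) (w (t + 1))) ∧
    (∀ t ≤ m, w t ∈ ann x n N) ∧ Odd (wind w m x)

/-- The rhombus of side `2 n` centred at `x`. -/
def rh (x : V) (n : ℕ) : Set V := {y | (y - x).1.natAbs ≤ n ∧ (y - x).2.natAbs ≤ n}

/-- Left-right crossing of the rhombus. -/
def HCr (E : V → V → Prop) (x : V) (n : ℕ) : Prop :=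
  ∃ a b, (a - x).1 = -n ∧ (b - x).1 = n ∧ a ∈ rh x n ∧ Conn E (rh x n) a b

/-- Bottom-top crossing of the rhombus. -/
def VCr (E : V → V → Prop) (x : V) (n : ℕ) : Prop :=
  ∃ a b, (a - x).2 = -n ∧ (b - x).2 = n ∧ a ∈ rh x n ∧ Conn E (rh x n) a b

/-- Level sets. -/
def ge (k : ℤ) (H : Cfg) : Set V := {x | k ≤ H x}
def le (k : ℤ) (H : Cfg) : Set V := {x | H x ≤ k}

/-- The spin `s j` is plus where `H` is `j` or `j + 1` modulo 4 (minus set: `sp (j + 2)`). -/
def sp (j : ℤ) (H : Cfg) : Set V := {x | (H x - j) % 4 = 0 ∨ (H x - j) % 4 = 1}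

/-- Inner vertex boundary. -/
def ibd (U : Set V) : Set V := {x | x ∈ U ∧ ∃ y, y ∉ U ∧ Adj x y}

/-- Outer vertex boundary. -/
def obd (U : Set V) : Set V := {x | x ∉ U ∧ ∃ y ∈ U, Adj x y}

/-- Flat boundary condition `k` outside `U`. -/
def flat (U : Set V) (k : ℤ) : Set Cfg := {H | Lip H ∧ ∀ x, x ∉ U → H x = k}

/-- Free two-valued boundary condition `{k, k+1}` on the inner boundary of `U`. -/
def free (U : Set V) (k : ℤ) : Set Cfg :=
  {H | Lip H ∧ (∀ x, x ∉ U → H x = k) ∧ ∀ x ∈ ibd U, H x = k ∨ H x = k + 1}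

/-- Two-valued boundary condition: `1` on `S \ F`, `0` on the rest of the complement of `F`. -/
def dob (F S : Set V) : Set Cfg :=
  {H | Lip H ∧ ∀ x, x ∉ F → (x ∈ S → H x = 1) ∧ (x ∉ S → H x = 0)}

/-- Lattice symmetries. -/
def IsSym (g : V ≃ V) : Prop := ∀ x y, Adj (g x) (g y) ↔ Adj x y

/-- Translation. -/
def tr (a : V) : V ≃ V := Equiv.addRight a

/-- Rotation by sixty degrees. -/
def rot : V ≃ V :=
  ⟨fun x => (-x.2, x.1 + x.2), fun x => (x.1 + x.2, -x.1), fun x => by simp, fun x => by simp⟩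

/-- Reflection exchanging the two coordinates. -/
def swp : V ≃ V := Equiv.prodComm ℤ ℤ

/-- Reflection in the row `y`. -/
def rf (y : ℤ) : V ≃ V :=
  ⟨fun x => (x.1 + x.2 - y, 2 * y - x.2), fun x => (x.1 + x.2 - y, 2 * y - x.2),
    fun x => by ext <;> simp; ring, fun x => by ext <;> simp; ring⟩

/-- `f` depends only on the values on `A`. -/
def DepOn {α : Type} (f : Cfg → α) (A : Set V) : Prop :=
  ∀ H H', (∀ x ∈ A, H x = H' x) → f H = f H'

/-- `f` is invariant under the global shift by `4`. -/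
def Inv4 {α : Type} (f : Cfg → α) : Prop := ∀ H, f (fun x => H x + 4) = f H

/-- Linear statistic. -/
noncomputable def lin (a : V →₀ ℝ) (H : Cfg) : ℝ := a.sum fun x c => c * H x

theorem adj_iff {x y : V} : Adj x y ↔
    (y.1 = x.1 + 1 ∧ y.2 = x.2) ∨ (y.1 = x.1 - 1 ∧ y.2 = x.2) ∨ (y.1 = x.1 ∧ y.2 = x.2 + 1) ∨
    (y.1 = x.1 ∧ y.2 = x.2 - 1) ∨ (y.1 = x.1 - 1 ∧ y.2 = x.2 + 1) ∨
    (y.1 = x.1 + 1 ∧ y.2 = x.2 - 1) := by
  simp only [Adj, mem_insert_iff, mem_singleton_iff, Prod.ext_iff, Prod.fst_sub, Prod.snd_sub]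
  omega

theorem Adj.symm {x y : V} (h : Adj x y) : Adj y x := by
  rw [adj_iff] at *; omega

theorem Adj.ne {x y : V} (h : Adj x y) : x ≠ y := by
  rintro rfl; rw [adj_iff] at h; omega

theorem isSym_tr (a : V) : IsSym (tr a) := fun x y => by
  simp only [adj_iff, tr, Equiv.coe_addRight, Prod.fst_add, Prod.snd_add]; omega

theorem isSym_rot : IsSym rot := fun x y => by
  simp only [adj_iff, rot, Equiv.coe_fn_mk]; omega

theorem isSym_swp : IsSym swp := fun x y => by
  simp only [adj_iff, swp, Equiv.prodComm_apply, Prod.fst_swap, Prod.snd_swap]; omega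

theorem isSym_rf (y : ℤ) : IsSym (rf y) := fun a b => by
  simp only [adj_iff, rf, Equiv.coe_fn_mk]; omega

end Vale.Agent.P153
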