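import Mathlib

/-! Definitions used in the statements for P153. -/

open Set Filter Topology MeasureTheory

namespace Vale.Agent.P153

/-- Vertices of the triangular lattice in the basis `1`, `exp (i π / 3)`. -/
abbrev V : Type := ℤ × ℤ

/-- Position of a vertex in the plane. -/
noncomputable def emb (x : V) : ℂ := (x.1 : ℂ) + (x.2 : ℂ) * ⟨1 / 2, √3 / 2⟩

/-- Nearest neighbours. -/
def Adj (x y : V) : Prop :=
  y - x ∈ ({(1, 0), (-1, 0), (0, 1), (0, -1), (-1, 1), (1, -1)} : Set V)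

/-- The polygonal line through `p 0, …, p M`, parametrized by `[0,1]`. -/
noncomputable def poly (p : ℕ → ℂ) (M : ℕ) (t : ℝ) : ℂ :=
  p ⌊M * t⌋₊ + ((Int.fract (M * t) : ℝ) : ℂ) * (p (⌊M * t⌋₊ + 1) - p ⌊M * t⌋₊)

/-- A simple closed lattice polygon `β 0, …, β N = β 0` with the marks splitting its vertices
into the indices below `k` and those from `k` on. -/
structure LDom where
  N : ℕ
  k : ℕ
  β : ℕ → V
  k_pos : 0 < k
  k_lt : k < N
  three : 3 ≤ N
  adj : ∀ i < N, Adj (β i) (β (i + 1))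
  closed : β N = β 0
  inj : InjOn β (Iio N)

/-- The boundary curve at unit mesh. -/
noncomputable def LDom.bd (L : LDom) (t : ℝ) : ℂ := poly (fun i => emb (L.β i)) L.N t

/-- The open polygonal domain at unit mesh. -/
def LDom.dom (L : LDom) : Set ℂ :=
  {z | z ∉ L.bd '' Icc 0 1 ∧ Bornology.IsBounded (connectedComponentIn (L.bd '' Icc 0 1)ᶜ z)}

/-- The vertices of the domain. -/
def LDom.vert (L : LDom) : Set V := {x | emb x ∈ L.dom ∨ ∃ i < L.N, L.β i = x}

/-- The height functions with value `ε` on the first arc and `-ε` on the second one. -/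
def LDom.Hts (L : LDom) (ε : ℤ) : Set (V → ℤ) :=
  {h | (∀ x ∈ L.vert, Odd (h x)) ∧ (∀ x, x ∉ L.vert → h x = 0) ∧
    (∀ i < L.k, h (L.β i) = ε) ∧ (∀ i, L.k ≤ i → i < L.N → h (L.β i) = -ε) ∧
    ∀ x ∈ L.vert, ∀ y ∈ L.vert, Adj x y → |h x - h y| = 0 ∨ |h x - h y| = 2}

/-- Uniform average over a finite set. -/
noncomputable def avg {α 𝕜 : Type} [Field 𝕜] (S : Set α) (g : α → 𝕜) : 𝕜 :=
  (∑ᶠ a ∈ S, g a) / (S.ncard : 𝕜)

/-- The nodal function of the origin: affine on each triangle, `1` at `0`, `0` at the other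
vertices. -/
noncomputable def hat (z : ℂ) : ℝ :=
  max 0 (1 - max (max |z.re - z.im / √3| |2 * z.im / √3|) |z.re + z.im / √3|)

/-- The extension of `h` that is affine on each triangle. -/
noncomputable def interp (h : V → ℤ) (z : ℂ) : ℝ := ∑ᶠ x : V, (h x : ℝ) * hat (z - emb x)

/-- The field at mesh `δ` tested against `f`. -/
noncomputable def LDom.field (L : LDom) (δ : ℝ) (f : ℂ → ℝ) (h : V → ℤ) : ℝ :=
  ∫ z in {z : ℂ | z / δ ∈ L.dom}, interp h (z / δ) * f z

/-- A conformal map of the unit disc that extends continuously and injectively to the closed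
disc. -/
def IsJordanMap (ψ : ℂ → ℂ) : Prop :=
  ContinuousOn ψ (Metric.closedBall 0 1) ∧ InjOn ψ (Metric.closedBall 0 1) ∧
    DifferentiableOn ℂ ψ (Metric.ball 0 1)

/-- The Dirichlet Green function of the image of the disc. -/
noncomputable def green (ψ : ℂ → ℂ) (z w : ℂ) : ℝ :=
  (2 * Real.pi)⁻¹ * Real.log
    (‖1 - (starRingEnd ℂ) (Function.invFunOn ψ (Metric.ball 0 1) z) *
        Function.invFunOn ψ (Metric.ball 0 1) w‖ /
      ‖Function.invFunOn ψ (Metric.ball 0 1) z - Function.invFunOn ψ (Metric.ball 0 1) w‖)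

/-- The variance of the Dirichlet Gaussian free field tested against `f`. -/
noncomputable def gffVar (ψ : ℂ → ℂ) (f : ℂ → ℝ) : ℝ :=
  ∫ p in (ψ '' Metric.ball 0 1) ×ˢ (ψ '' Metric.ball 0 1), f p.1 * green ψ p.1 p.2 * f p.2

/-- Smooth functions with compact support in the image of the disc. -/
def IsTest (ψ : ℂ → ℂ) (f : ℂ → ℝ) : Prop :=
  ContDiff ℝ (⊤ : ℕ∞) f ∧ HasCompactSupport f ∧ tsupport f ⊆ ψ '' Metric.ball 0 1

/-- The lattice domains `L n` at meshes `δ n` approximate the domain with marks `ψ (-1)`, `ψ 1`. -/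
def Approx (ψ : ℂ → ℂ) (L : ℕ → LDom) (δ : ℕ → ℝ) : Prop :=
  (∀ n, 0 < δ n) ∧ Tendsto δ atTop (𝓝 0) ∧
    Tendsto (fun n => (δ n : ℂ) * emb ((L n).β (L n).k)) atTop (𝓝 (ψ 1)) ∧
    ∀ e : ℝ, 0 < e → ∀ᶠ n in atTop, ∃ ρ : unitInterval ≃o unitInterval, ∀ t : unitInterval,
      dist ((δ n : ℂ) * (L n).bd (ρ t))
        (ψ (Complex.exp (Real.pi * Complex.I * (1 - 2 * (t : ℝ))))) ≤ e

end Vale.Agent.P153
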