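import Vale.Agent.P153.Defs
import Vale.Agent.P164.Defs

/-! Definitions for the interface in the statement for P153. -/

open Set Filter Topology

namespace Vale.Agent.P153

/-- One step of the exploration: from the edge `(l, r)` enter the triangle ahead. -/
def step (h : V → ℤ) (e : V × V) : V × V :=
  if h (e.2 + ((e.1 - e.2).1 + (e.1 - e.2).2, -(e.1 - e.2).1)) = h e.1 then
    (e.2 + ((e.1 - e.2).1 + (e.1 - e.2).2, -(e.1 - e.2).1), e.2)
  else (e.1, e.2 + ((e.1 - e.2).1 + (e.1 - e.2).2, -(e.1 - e.2).1))

/-- The successive edges crossed by the interface. -/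
def LDom.edge (L : LDom) (h : V → ℤ) (m : ℕ) : V × V :=
  (step h)^[m] (L.β 0, L.β (L.N - 1))

/-- The number of steps of the interface. -/
noncomputable def LDom.len (L : LDom) (h : V → ℤ) : ℕ :=
  sInf {m | L.edge h m = (L.β (L.k - 1), L.β L.k)}

/-- The interface at mesh `δ`: the polygonal line through the midpoints of the crossed edges. -/
noncomputable def LDom.iface (L : LDom) (δ : ℝ) (h : V → ℤ) (t : unitInterval) : ℂ :=
  δ * poly (fun m => (emb (L.edge h m).1 + emb (L.edge h m).2) / 2) (L.len h) t

/-- Uniform distance modulo increasing reparametrization. -/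
noncomputable def cdist (c d : unitInterval → ℂ) : ℝ :=
  ⨅ ρ : unitInterval ≃o unitInterval, ⨆ t, dist (c (ρ t)) (d t)

/-- The curve `γ` is the image in the domain of the trace generated by the driving function `U`. -/
def IsTrace (ψ : ℂ → ℂ) (U : ℝ → ℝ) (γ : unitInterval → ℂ) : Prop :=
  Continuous γ ∧ γ 1 = ψ 1 ∧ ∃ η : ℝ → ℂ, P164.Generates U η ∧
    ∀ t : unitInterval, (t : ℝ) < 1 →
      γ t = ψ ((η (t / (1 - t)) - Complex.I) / (η (t / (1 - t)) + Complex.I))

end Vale.Agent.P153
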