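import Vale.Agent.P153.A2.Stm
import Vale.Agent.P153.Wick.Hat

/-! P153: the interface lies in the zero set of the interpolation. -/

open Set Filter Topology

namespace Vale.Agent.P153

open Wick Wick.Hat

theorem int_two {x : ℝ} {m k : ℤ} (h : |x - m| < 1) (h0 : (k : ℝ) ≤ x) (h1 : x ≤ k + 1) :
    k ≤ m ∧ m ≤ k + 1 := by
  rw [abs_lt] at h
  have a1 : (k : ℝ) < m + 1 := by linarith [h.2]
  have a2 : (m : ℝ) < k + 2 := by linarith [h.1]
  have a3 : k < m + 1 := by exact_mod_cast a1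
  have a4 : m < k + 2 := by exact_mod_cast a2
  omega

theorem h2_of {s t c : ℝ} (c0 : 0 ≤ c) (k1 : |s| ≤ 1 - c) (k2 : |t| ≤ 1 - c) (k3 : |s + t| ≤ 1 - c)
    (k : (s - (1 - c)) * (s + (1 - c)) * (t - (1 - c)) * (t + (1 - c)) * (s + t - (1 - c)) *
      (s + t + (1 - c)) = 0) : h2 s t = c := by
  have e : max (max |s| |t|) |s + t| = 1 - c := by
    refine le_antisymm (max_le (max_le k1 k2) k3) ?_
    have a1 : |s| ≤ max (max |s| |t|) |s + t| := (le_max_left _ _).trans (le_max_left _ _)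
    have a2 : |t| ≤ max (max |s| |t|) |s + t| := (le_max_right _ _).trans (le_max_left _ _)
    have a3 : |s + t| ≤ max (max |s| |t|) |s + t| := le_max_right _ _
    simp only [mul_eq_zero] at k
    rcases k with ((((k | k) | k) | k) | k) | k <;>
      linarith [le_abs_self s, neg_abs_le s, le_abs_self t, neg_abs_le t, le_abs_self (s + t),
        neg_abs_le (s + t)]
  rw [h2, e, sub_sub_cancel, max_eq_right c0]

theorem h2_tri {p q : ℤ} (hd : Adj 0 (p, q)) {a b : ℝ} (ha : 0 ≤ a) (hb : 0 ≤ b)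
    (hab : a + b ≤ 1) : h2 (a * p + b * (p + q)) (a * q - b * p) = 1 - a - b ∧
      h2 (a * p + b * (p + q) - p) (a * q - b * p - q) = a ∧
      h2 (a * p + b * (p + q) - (p + q)) (a * q - b * p + p) = b := by
  rw [adj_iff] at hd
  simp only [Prod.fst_zero, Prod.snd_zero, zero_add, zero_sub] at hd
  rcases hd with ⟨rfl, rfl⟩ | ⟨rfl, rfl⟩ | ⟨rfl, rfl⟩ | ⟨rfl, rfl⟩ | ⟨rfl, rfl⟩ | ⟨rfl, rfl⟩ <;>
    push_cast <;> refine ⟨?_, ?_, ?_⟩ <;>
    exact h2_of (by linarith) (abs_le.2 ⟨by linarith, by linarith⟩)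
      (abs_le.2 ⟨by linarith, by linarith⟩) (abs_le.2 ⟨by linarith, by linarith⟩) (by ring)

theorem interp_tri (h : V → ℤ) (u d : V) (hd : Adj 0 d) {a b : ℝ} (ha : 0 ≤ a) (hb : 0 ≤ b)
    (hab : a + b ≤ 1) :
    interp h (emb u + a * emb d + b * emb (d.1 + d.2, -d.1)) =
      (1 - a - b) * h u + a * h (u + d) + b * h (u + (d.1 + d.2, -d.1)) := by
  have h3 : √3 ≠ 0 := by positivity
  have e : ∀ x : V, hat (emb u + a * emb d + b * emb (d.1 + d.2, -d.1) - emb x) =
      h2 (a * d.1 + b * (d.1 + d.2) - (x.1 - u.1 : ℤ)) (a * d.2 - b * d.1 - (x.2 - u.2 : ℤ)) := by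
    intro x
    rw [hat_sub]
    congr 1 <;> simp [emb] <;> field_simp <;> ring
  have hs : ∀ x : V, h2 (a * d.1 + b * (d.1 + d.2) - (x.1 - u.1 : ℤ))
      (a * d.2 - b * d.1 - (x.2 - u.2 : ℤ)) ≠ 0 →
      x = u ∨ x = u + d ∨ x = u + (d.1 + d.2, -d.1) := fun x hx => by
    obtain ⟨k1, k2, k3⟩ := h2_ne hx
    have k4 : |a * (d.1 + d.2) + b * d.2 - ((x.1 - u.1) + (x.2 - u.2) : ℤ)| < 1 := by
      convert k3 using 2
      push_cast
      ring
    obtain ⟨p, q⟩ := d
    simp only [Prod.ext_iff, Prod.fst_add, Prod.snd_add]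
    rw [adj_iff] at hd
    simp only [Prod.fst_zero, Prod.snd_zero, zero_add, zero_sub] at hd
    rcases hd with ⟨rfl, rfl⟩ | ⟨rfl, rfl⟩ | ⟨rfl, rfl⟩ | ⟨rfl, rfl⟩ | ⟨rfl, rfl⟩ | ⟨rfl, rfl⟩
    · have := int_two (k := 0) k1 (by simp; linarith) (by simp; linarith)
      have := int_two (k := -1) k2 (by simp; linarith) (by simp; linarith)
      have := int_two (k := 0) k4 (by simp; linarith) (by simp; linarith)
      omega
    · have := int_two (k := -1) k1 (by simp; linarith) (by simp; linarith)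
      have := int_two (k := 0) k2 (by simp; linarith) (by simp; linarith)
      have := int_two (k := -1) k4 (by simp; linarith) (by simp; linarith)
      omega
    · have := int_two (k := 0) k1 (by simp; linarith) (by simp; linarith)
      have := int_two (k := 0) k2 (by simp; linarith) (by simp; linarith)
      have := int_two (k := 0) k4 (by simp; linarith) (by simp; linarith)
      omega
    · have := int_two (k := -1) k1 (by simp; linarith) (by simp; linarith)
      have := int_two (k := -1) k2 (by simp; linarith) (by simp; linarith)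
      have := int_two (k := -1) k4 (by simp; linarith) (by simp; linarith)
      omega
    · have := int_two (k := -1) k1 (by simp; linarith) (by simp; linarith)
      have := int_two (k := 0) k2 (by simp; linarith) (by simp; linarith)
      have := int_two (k := 0) k4 (by simp; linarith) (by simp; linarith)
      omega
    · have := int_two (k := 0) k1 (by simp; linarith) (by simp; linarith)
      have := int_two (k := -1) k2 (by simp; linarith) (by simp; linarith)
      have := int_two (k := -1) k4 (by simp; linarith) (by simp; linarith)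
      omega
  unfold interp
  simp only [e]
  rw [finsum_eq_sum_of_support_subset (s := ({u, u + d, u + (d.1 + d.2, -d.1)} : Finset V)) _
    fun x hx => by simpa using hs x (right_ne_zero_of_mul hx)]
  obtain ⟨p, q⟩ := d
  obtain ⟨k1, k2, k3⟩ := h2_tri hd ha hb hab
  rw [adj_iff] at hd
  simp only [Prod.fst_zero, Prod.snd_zero, zero_add, zero_sub] at hd
  rw [Finset.sum_insert (by simp [Prod.ext_iff]; omega),
    Finset.sum_pair (by simp [Prod.ext_iff]; omega)]
  simp only [Prod.fst_add, Prod.snd_add, add_sub_cancel_left, sub_self]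
  push_cast
  rw [sub_zero, sub_zero, sub_neg_eq_add, k1, k2, k3]
  ring

theorem emb_add' (x y : V) : emb (x + y) = emb x + emb y := by
  simp only [emb, Prod.fst_add, Prod.snd_add]
  push_cast
  ring

theorem colour {L : LDom} {ε : ℤ} {h : V → ℤ} (hε : ε = 1 ∨ ε = -1) (hh : h ∈ L.Hts ε)
    (hL : A2.Lat L ε h) : ∀ i ≤ L.len h, h (L.edge h i).1 = ε ∧ h (L.edge h i).2 = -ε := by
  obtain ⟨-, -, h3, h4, h5⟩ := hh
  have k1 := L.k_pos
  have k2 := L.k_lt
  have vl : ∀ i ≤ L.len h, (L.edge h i).1 ∈ L.vert := fun i hi =>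
    (hL.inl i hi).imp id fun ⟨j, a, b⟩ => ⟨j, lt_trans a k2, b⟩
  have vr : ∀ i ≤ L.len h, (L.edge h i).2 ∈ L.vert := fun i hi =>
    (hL.inr i hi).imp id fun ⟨j, a, b⟩ => ⟨j, a.2, b⟩
  intro i
  induction i with
  | zero => exact fun _ => ⟨h3 0 k1, h4 _ (by omega) (by omega)⟩
  | succ i ih =>
    intro hi
    obtain ⟨a1, a2⟩ := ih (by omega)
    have b1 := h5 _ (vl _ hi) _ (vr _ hi) (hL.adj _ hi)
    have b2 := (hL.str i hi).imp id (h5 _ (vr i (by omega)) _ (vr _ hi))
    have e : L.edge h (i + 1) = step h (L.edge h i) := Function.iterate_succ_apply' _ _ _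
    rw [e] at b1 b2 ⊢
    unfold step at b1 b2 ⊢
    split_ifs at b1 b2 ⊢ with c
    · exact ⟨c.trans a1, a2⟩
    · refine ⟨a1, ?_⟩
      rcases b2 with b2 | b2
      · exact (congrArg h b2).trans a2
      · simp only [a1, a2, abs_eq_max_neg] at b1 b2 c ⊢
        omega

theorem iface_zero (hp : A2.S_poly) {L : LDom} {ε : ℤ} {h : V → ℤ} {δ : ℝ} (hδ : 0 < δ)
    (hε : ε = 1 ∨ ε = -1) (hh : h ∈ L.Hts ε) (hL : A2.Lat L ε h) :
    Continuous (L.iface δ h) ∧ Function.Injective (L.iface δ h) ∧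
      L.iface δ h 0 = δ * ((emb (L.β 0) + emb (L.β (L.N - 1))) / 2) ∧
      L.iface δ h 1 = δ * ((emb (L.β (L.k - 1)) + emb (L.β L.k)) / 2) ∧
      ∀ t, interp h (L.iface δ h t / δ) = 0 ∧ (t ≠ 0 → t ≠ 1 → L.iface δ h t / δ ∈ L.dom) := by
  obtain ⟨p1, p2, p3, p4, -⟩ := hp (A2.mid L h) _ hL.pos
  have d0 : (δ : ℂ) ≠ 0 := Complex.ofReal_ne_zero.2 hδ.ne'
  have e : ∀ t, L.iface δ h t = δ * poly (A2.mid L h) (L.len h) t := fun _ => rfl
  have l0 : (L.len h : ℝ) ≠ 0 := Nat.cast_ne_zero.2 hL.pos.ne'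
  refine ⟨continuous_const.mul (p1.comp_continuous continuous_subtype_val fun t => t.2),
    fun s t k => Subtype.ext (hL.inj s.2 t.2 (mul_left_cancel₀ d0 k)), ?_, ?_, fun t => ?_⟩
  · have := p2 0 (Nat.zero_le _)
    rw [Nat.cast_zero, zero_div] at this
    rw [e, Set.Icc.coe_zero, this]
    rfl
  · have := p2 _ le_rfl
    rw [div_self l0] at this
    rw [e, Set.Icc.coe_one, this, A2.mid, hL.last]
  rw [e, mul_div_cancel_left₀ _ d0]
  refine ⟨?_, fun k0 k1 => hL.ins _ ⟨t.2.1.lt_of_ne fun k => k0 (Subtype.ext k.symm),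
    t.2.2.lt_of_ne fun k => k1 (Subtype.ext k)⟩⟩
  obtain ⟨i, hi, ht⟩ := p4 t t.2
  obtain ⟨a, b, ha, hb, hab, k⟩ := p3 i hi t ht
  obtain ⟨c1, c2⟩ := colour hε hh hL i hi.le
  obtain ⟨c3, c4⟩ := colour hε hh hL (i + 1) hi
  have hd : Adj 0 ((L.edge h i).1 - (L.edge h i).2) := by
    have := (hL.adj i hi.le).symm
    unfold Adj at this ⊢
    rwa [sub_zero]
  have es : L.edge h (i + 1) = step h (L.edge h i) := Function.iterate_succ_apply' _ _ _
  rw [← k, A2.mid, A2.mid]
  rw [es] at c3 c4 ⊢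
  generalize L.edge h i = x at *
  obtain ⟨l, r⟩ := x
  obtain ⟨d, rfl⟩ : ∃ d, l = r + d := ⟨l - r, by simp⟩
  obtain rfl : a = 1 - b := by linarith
  unfold step at c3 c4 ⊢
  simp only [add_sub_cancel_left] at c1 c2 c3 c4 hd ⊢
  split_ifs at c3 c4 ⊢ with c
  · have := interp_tri h r d hd (a := (1 - b) / 2) (b := b / 2) (by linarith) (by linarith)
      (by linarith)
    rw [c1, c2, c3] at this
    convert this using 2
    · simp only [emb_add', Complex.real_smul]
      push_cast
      ring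
    · push_cast
      ring
  · have := interp_tri h r d hd (a := 1 / 2) (b := b / 2) (by linarith) (by linarith)
      (by linarith)
    rw [c1, c2, c4] at this
    convert this using 2
    · simp only [emb_add', Complex.real_smul]
      push_cast
      ring
    · push_cast
      ring

end Vale.Agent.P153
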