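import Vale.Agent.P153.Mean
import Vale.Agent.P153.Zero
import Vale.Agent.P153.A2.Stm
import Vale.Agent.P153.SLE.DrvAll

/-! P153: the field with the explicit constant, and the final statement. -/

open Set Filter Topology MeasureTheory Metric ProbabilityTheory
open scoped NNReal

namespace Vale.Agent.P153

universe u

theorem field_const (h1 : A2.S_maps) (h2 : A2.Out) (ψ : ℂ → ℂ) (L : ℕ → LDom) (δ : ℕ → ℝ) (ε : ℤ)
    (hψ : IsJordanMap ψ) (hA : Approx ψ L δ) (hε : ε = 1 ∨ ε = -1) (f : ℂ → ℝ) (hf : IsTest ψ f) :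
    Tendsto (fun n => avg ((L n).Hts ε) fun h => Complex.exp (Complex.I *
      (((L n).field (δ n) f h - avg ((L n).Hts ε) ((L n).field (δ n) f)) / √(8 / Real.pi) : ℝ)))
      atTop (𝓝 (Complex.exp (-(gffVar ψ f / 2 : ℝ)))) := by
  obtain ⟨K, ⟨a, b, ha, hab⟩, k1, k2⟩ := uniK_all ψ L δ ε hψ hA hε
  obtain ⟨Ψ, hΨ⟩ := h1 ψ L δ hψ hA
  obtain ⟨S, τ, W, t, -, hD⟩ := h2 ψ L δ ε Ψ K hψ hA hε hΨ
    ⟨⟨b, fun n => by rw [abs_of_pos (ha.trans_le (hab n).1)]; exact (hab n).2⟩, k1⟩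
  have e : √(8 / Real.pi) = 2 * √(2 / Real.pi) := by
    rw [show 8 / Real.pi = 2 ^ 2 * (2 / Real.pi) by ring, Real.sqrt_mul (by positivity),
      Real.sqrt_sq (by positivity)]
  rw [e]
  exact k2 _ (Drive.out_all _ _ _ _ _ _ hD).1 f hf

theorem full_of (h1 : A2.S_maps) (h2 : A2.Out) (h3 : SLE.SLEconv.{u}) (h4 : A2.S_lat)
    (h5 : A2.S_poly) :
    ∀ (ψ : ℂ → ℂ) (L : ℕ → LDom) (δ : ℕ → ℝ) (ε : ℤ), IsJordanMap ψ → Approx ψ L δ →
      (ε = 1 ∨ ε = -1) →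
      (∀ n, ((L n).Hts ε).Finite ∧ ((L n).Hts ε).Nonempty) ∧
      (∀ f, IsTest ψ f →
        Tendsto (fun n => avg ((L n).Hts ε) ((L n).field (δ n) f)) atTop
          (𝓝 (∫ z, ε * (2 / Real.pi * Complex.arg (Complex.I *
            (1 + Function.invFunOn ψ (Metric.ball 0 1) z) /
              (1 - Function.invFunOn ψ (Metric.ball 0 1) z)) - 1) * f z)) ∧
        Tendsto (fun n => avg ((L n).Hts ε) fun h => Complex.exp (Complex.I *
          (((L n).field (δ n) f h - avg ((L n).Hts ε) ((L n).field (δ n) f)) /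
            √(8 / Real.pi) : ℝ))) atTop (𝓝 (Complex.exp (-(gffVar ψ f / 2 : ℝ))))) ∧
      (∀ᶠ n in atTop, ∀ h ∈ (L n).Hts ε,
        Continuous ((L n).iface (δ n) h) ∧ Function.Injective ((L n).iface (δ n) h) ∧
        (L n).iface (δ n) h 0 = δ n * ((emb ((L n).β 0) + emb ((L n).β ((L n).N - 1))) / 2) ∧
        (L n).iface (δ n) h 1 = δ n * ((emb ((L n).β ((L n).k - 1)) + emb ((L n).β (L n).k)) / 2) ∧
        ∀ t, interp h ((L n).iface (δ n) h t / δ n) = 0 ∧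
          (t ≠ 0 → t ≠ 1 → (L n).iface (δ n) h t / δ n ∈ (L n).dom)) ∧
      ∀ (Ω : Type u) [MeasurableSpace Ω] (P : Measure Ω) (B : ℝ≥0 → Ω → ℝ), IsBrownianReal B P →
        ∃ γ : Ω → unitInterval → ℂ,
          (∀ᵐ ω ∂P, IsTrace ψ (fun t => 2 * B t.toNNReal ω) (γ ω)) ∧
          ∀ F : (unitInterval → ℂ) → ℝ, (∃ M, ∀ c, |F c| ≤ M) →
            (∀ c, Continuous c → ∀ e : ℝ, 0 < e → ∃ d : ℝ, 0 < d ∧
              ∀ c', Continuous c' → cdist c' c < d → |F c' - F c| < e) →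
            Integrable (fun ω => F (γ ω)) P ∧
              Tendsto (fun n => avg ((L n).Hts ε) fun h => F ((L n).iface (δ n) h)) atTop
                (𝓝 (∫ ω, F (γ ω) ∂P)) := fun ψ L δ ε hψ hA hε =>
  ⟨(field_all ψ L δ ε hψ hA hε).1,
    fun f hf => ⟨mean_all ψ L δ ε hψ hA hε f hf, field_const h1 h2 ψ L δ ε hψ hA hε f hf⟩,
    (h4 ψ L δ ε hψ hA hε).mono fun n k h hh => iface_zero h5 (hA.1 n) hε hh (k h hh),
    fun Ω _ P B hB => (h3 ψ L δ ε hψ hA hε Ω P B hB).imp fun _ k =>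
      ⟨k.1, fun F a b => k.2 F ⟨a, b⟩⟩⟩

end Vale.Agent.P153
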