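import Vale.Agent.P153.All
import Vale.Agent.P153.Wick.Uni4

/-! P153: the limit of the mean height, and the uniform statements. -/

open Set Filter Topology MeasureTheory Metric
open Vale.Agent.P071 (Test)

namespace Vale.Agent.P153

open Wick

theorem uniM_all : UniM :=
  uniM App2.l_mb_all App2.l_m0_all App2.l_mix_all l_har_all App2.l_var_all

theorem uniK_all : UniK :=
  uniK App2.l_mb_all App2.l_m0_all App2.l_mix_all l_har_all (K2.l_bv_all App2.l_mb_all)
    App2.l_var_all

theorem mean_all (ψ : ℂ → ℂ) (L : ℕ → LDom) (δ : ℕ → ℝ) (ε : ℤ) (hψ : IsJordanMap ψ)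
    (hA : Approx ψ L δ) (hε : ε = 1 ∨ ε = -1) (f : ℂ → ℝ) (hf : IsTest ψ f) :
    Tendsto (fun n => avg ((L n).Hts ε) ((L n).field (δ n) f)) atTop
      (𝓝 (∫ z, ε * (2 / Real.pi * Complex.arg (Complex.I *
        (1 + Function.invFunOn ψ (ball 0 1) z) / (1 - Function.invFunOn ψ (ball 0 1) z)) - 1) *
          f z)) := by
  obtain ⟨-, -, hconf, -⟩ := s_conf ψ hψ
  have hq := (seq_ok ψ _ _ hψ hA).1
  have h := uniM_all _ ψ _ _ _ δ ε hq hconf
    (gbv_ok (K2.l_bv_all App2.l_mb_all) ψ _ _ ε hψ hA hε) f hf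
  choose e he he' using fun n => s_bij ld2_ok (L n) ε hε
  have hf' : Test univ f := ⟨hf.1, hf.2.1, subset_univ _⟩
  have i1 : Integrable f := hf.1.continuous.integrable_of_hasCompactSupport hf.2.1
  have i2 : Integrable fun z => ue ε (inv ψ z) * f z := by
    obtain ⟨G, hG, eG⟩ := Uni.ue_re hconf ε
    simp only [eG]
    refine Continuous.integrable_of_hasCompactSupport ?_ hf.2.1.mul_left
    refine continuous_of_tsupport fun z hz => ?_
    have hz' := hf.2.2 (tsupport_mul_subset_right hz)
    exact (Complex.continuous_re.continuousAt.comp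
      (hG.continuousOn.continuousAt (hq.op.mem_nhds hz'))).mul hf.1.continuous.continuousAt
  have e1 : (∫ z, ε * (2 / Real.pi * Complex.arg (Complex.I *
        (1 + Function.invFunOn ψ (ball 0 1) z) / (1 - Function.invFunOn ψ (ball 0 1) z)) - 1) *
          f z) = 2 * (∫ z, ue ε (inv ψ z) * f z) - ∫ z, f z := by
    rw [← integral_const_mul, ← integral_sub (i2.const_mul 2) i1]
    refine integral_congr_ae (.of_forall fun z => ?_)
    rcases hε with rfl | rfl <;> simp [ue, uu, inv] <;> ring
  rw [e1]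
  refine ((h.const_mul 2).sub_const _).congr' ?_
  filter_upwards [Uni.transfer hψ hA he' hf] with n hfield
  have hg := s_loc.1 _ (Sp (L n) ε) (hq.dom n).1
  rw [← (wt_ok (δ n) f (hq.pos n) hf').2.1, Final.avg_bij (he n), ← Ex_mul_left, ← Ex_const hg (tot _),
    ← Ex_sub]
  exact (Final.avg_congr fun H _ => hfield H).symm

end Vale.Agent.P153
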