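import Vale.Agent.P153.Final
import Vale.Agent.P153.A2.All
import Vale.Agent.P153.A2.LatDg
import Vale.Agent.P153.A2.LatFace
import Vale.Agent.P153.A2.LatJump
import Vale.Agent.P153.A2.LatLine
import Vale.Agent.P153.A2.LatMark
import Vale.Agent.P153.A2.LatOf
import Vale.Agent.P153.A2.LatOri
import Vale.Agent.P153.A2.LatTri
import Vale.Agent.P153.A2.LatWalk
import Vale.Agent.P153.SLE.Geo2

/-! P153: all parts assembled. -/

namespace Vale.Agent.P153

open A2

universe u

theorem top_lat : S_lat :=
  have hf : S_face := s_face s_tri s_plan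
  s_lat (s_ori s_tri hf (s_dg CA.s_bdir) (s_psi CA.s_bconv) (s_jump s_tri hf s_plan) jl_all
    CA.jct_all Wick.seq_ok) (s_walk hf) (s_line s_tri hf s_plan) s_mark

theorem top_out : A2.Out := out_all top_lat

theorem top_sle : SLE.SLEconv.{u} := SLE.sle_of' maps_all top_out top_lat dc_all

end Vale.Agent.P153
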